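import Vale.Agent.P340.Final

namespace Vale.Agent.Results.P340.FullPTSWNimpSN

open Vale.Agent.P340

/-- Weak normalisation implies strong normalisation for semi-full pure type systems closed under
`(s,s,s)` and `(a,b,c) => (a,c,c)`; in particular for every full pure type system with standard
rules. Sorts without a type, dependent types and non-functional specifications are allowed. -/
theorem result : ∀ (S : Type) (P : Spec S),
    (∀ s t, ∃ r, P.rule s t r) →
    (∀ s, P.rule s s s) →
    (∀ a b c, P.rule a b c → P.rule a c c) →
    IsWN P → IsSN P :=
  fun _ _ h1 h2 h3 hWN => isSN ⟨h1, h2, h3⟩ hWN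

end Vale.Agent.Results.P340.FullPTSWNimpSN
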